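import Vale.Agent.P181.DU9.H924.WU.Common

set_option autoImplicit false

/-!
# P181, DU, version W: spread tail (the proof of `DG9.heavy4D`)
-/

namespace Vale.Agent.P181.DU.WU924

open Vale.Agent.P181.T4 (ex low)
open Vale.Agent.P181.H280 (plethMult)
open Vale.Agent.P181.H463 (gt)
open Vale.Agent.P181.PL Vale.Agent.P181.PL508 Vale.Agent.P181.DG

/-- Spread and heavy tail, near the diagonal. -/
theorem heavy4W (hL : LBI) (hA : AsmU) {a b n X R : ℕ} {lam : Fin n → ℕ}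
    (h : HyW a b n X lam) (hR3 : 3 ≤ R) (hRn : R < n) (hRX : R ≤ X ^ 14)
    (hRs : X ^ 13 * Xn a lam R ≤ En a lam R)
    (hDR : En a lam 2 ≤ X ^ 2600 * En a lam R) (hs : dn lam 1 < X ^ 2 * En a lam 2) :
    plethMult a b n lam ≤ plethMult b a n lam := by
  obtain ⟨ha, hX, hl1, hl6, hwa, hDD, h3a, Z, K, hZ1, hZ2, hZX, hZa, hZ65, hZD', hab, hK1,
    hKX, _, hwX, hKa⟩ := commonW h
  obtain ⟨hlam, hsum, hpos, hna, _, _, hXab, hXa, hlog, hD2, h1, _, hw⟩ := h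
  have hZb : Z * X ^ 100 ≤ a := (Nat.mul_le_mul_left _ (Nat.pow_le_pow_right
    (le_trans (by norm_num) hX) (by norm_num))).trans hZ65
  obtain ⟨w, hwdef⟩ : ∃ w, w = dn lam 1 := ⟨_, rfl⟩
  rw [← hwdef] at hw hs hwa hDD h3a hZ1 hZ2 hwX
  have hX1 : 1 ≤ X := le_trans (by norm_num) hX
  have hXp : ∀ i j, i ≤ j → X ^ i ≤ X ^ j := fun i j hij => Nat.pow_le_pow_right hX1 hij
  have hXpos : ∀ i, 1 ≤ X ^ i := fun i => Nat.one_le_pow _ _ hX1
  have hXp1 : ∀ j, 1 ≤ j → X ≤ X ^ j := fun j hj => by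
    have := hXp 1 j hj
    rwa [pow_one] at this
  -- the numbers
  obtain ⟨a0, ha0⟩ : ∃ a0, a0 = Z / 2 := ⟨_, rfl⟩
  have hZpos : 1 ≤ Z := (hXpos 9999).trans hZX
  have hZX' : X ≤ Z := (hXp1 9999 (by norm_num)).trans hZX
  have ha1 : 2 * a0 ≤ Z := by omega
  have ha4 : Z ≤ 3 * a0 := by omega
  have hZZ : Z ^ 2 = Z * Z := sq Z
  have hwZ : w ≤ 2 * Z ^ 2 := by
    have e : (Z + 1) ^ 2 = Z ^ 2 + 2 * Z + 1 := by ring
    have e2 : Z * 4 ≤ Z * Z := Nat.mul_le_mul_left _ (by omega)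
    rw [← hZZ] at e2
    omega
  have hX3 : 64 * X ≤ X ^ 2 := by
    rw [sq]
    exact Nat.mul_le_mul_right _ (by omega)
  have hdn1 : w = ex lam 1 + dn lam 2 := by rw [hwdef, dn_succ]
  have hT : dn lam 1 + ex lam 1 ≤ a0 * (Z * X ^ 70) + a := by
    have e1 : 3 * (a0 * (Z * X ^ 70)) = 3 * a0 * (Z * X ^ 70) := by ring
    have e2 : Z * (Z * X ^ 70) ≤ 3 * a0 * (Z * X ^ 70) := Nat.mul_le_mul_right _ ha4
    have e3 : Z * (Z * X ^ 70) = Z ^ 2 * X ^ 70 := by ring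
    have e4 : Z ^ 2 * 16 ≤ Z ^ 2 * X ^ 70 := Nat.mul_le_mul_left _ (by
      have := hXp1 70 (by norm_num)
      omega)
    omega
  obtain ⟨nu, hnu, hnusum, hnu1, hnu2, hnu3, hnuE, hnuX⟩ :=
    exists_nuW (by omega : 2 ≤ n) hlam (a := a) (by omega : a ≤ ex lam 1) hT
  rw [← hnuX R (by omega), ← hnuE R (by omega)] at hRs
  rw [← hnuE 2 (by norm_num), ← hnuE R (by omega)] at hDR
  rw [← hnuE 2 (by norm_num)] at hs hZD'
  -- the tail
  have hDpos : 1 ≤ dn nu R := by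
    by_contra hcon
    have e1 : dn nu R = 0 := by omega
    rw [e1, mul_zero] at hDR
    have e2 : 1 ≤ Z * X ^ 3000 := Nat.mul_pos hZpos (hXpos 3000)
    omega
  have hRn1 : R + 1 < n := by
    by_contra hcon
    have e1 : dn nu (R + 1) = 0 := dn_ge nu (by omega)
    have e2 := dn_succ nu R
    have e4 : 2 * ex nu R ≤ X ^ 13 * ex nu R := Nat.mul_le_mul_right _ (by
      have := hXp1 13 (by norm_num)
      omega)
    omega
  -- `w ≤ X^2602 D_R`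
  have hwD : w ≤ X ^ 2602 * dn nu R := by
    calc w ≤ X ^ 2 * dn nu 2 := hs.le
      _ ≤ X ^ 2 * (X ^ 2600 * dn nu R) := Nat.mul_le_mul_left _ hDR
      _ = X ^ 2602 * dn nu R := by ring
  have hZD : Z ^ 2 ≤ 2 * (X ^ 2602 * dn nu R) := by
    have := hZ1.trans hwD
    omega
  have ha0Z : a0 ≤ Z := by omega
  have hZa' : Z < a := by
    refine lt_of_le_of_lt ?_ hZa
    exact Nat.le_mul_of_pos_right _ (hXpos 2)
  have hnuw : dn nu R ≤ w := by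
    have e1 := dn_anti nu (show 1 ≤ R by omega)
    omega
  refine hA a b n R X Z K w a0 (Z * X ^ 70) lam nu hlam hsum (Or.inl hpos) (by omega) hRn1
    hwdef hZ1 hZ2 hK1 hKX hZX' hwX hKa hab ?_ (by omega) (by omega) ?_ ?_ hnu1 hnu2 ?_ ?_
  · -- Z X ^ 2 + 2 ≤ a
    have e1 : 2 * (Z * X ^ 2) ≤ Z * X ^ 100 := by
      calc 2 * (Z * X ^ 2) ≤ X * (Z * X ^ 2) := Nat.mul_le_mul_right _ (by omega)
        _ = Z * X ^ 3 := by ring
        _ ≤ Z * X ^ 100 := Nat.mul_le_mul_left _ (hXp _ _ (by norm_num))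
    have e2 : 2 * 1 ≤ Z * X ^ 2 := Nat.mul_le_mul (by omega) (hXpos 2)
    omega
  · -- a + a0 (a0 + 2) ≤ w
    have e1 : 4 * (a0 * (a0 + 2)) = 2 * a0 * (2 * a0) + 4 * (2 * a0) := by ring
    have e2 : 2 * a0 * (2 * a0) ≤ Z * Z := Nat.mul_le_mul ha1 ha1
    have e3 : Z * 8 ≤ Z * Z := Nat.mul_le_mul_left _ (by omega)
    rw [← hZZ] at e2 e3
    omega
  · -- 3 (b0 + 1) ≤ a
    have e3 : 8 * (Z * X ^ 70) ≤ Z * X ^ 100 := by
      calc 8 * (Z * X ^ 70) ≤ X * (Z * X ^ 70) := Nat.mul_le_mul_right _ (by omega)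
        _ = Z * X ^ 71 := by ring
        _ ≤ Z * X ^ 100 := Nat.mul_le_mul_left _ (hXp _ _ (by norm_num))
    have e4 : 1 ≤ Z * X ^ 70 := Nat.mul_pos hZpos (hXpos 70)
    omega
  · rw [← hnu3, hwdef]
  · intro hnJ
    have hJa : Z * X ^ 2 + 1 ≤ a := hZa
    have hL0 : 0 ≤ Real.log a := Real.log_nonneg (by exact_mod_cast ha)
    have hlogJ : Real.log ((Z * X ^ 2 + 1 : ℕ) : ℝ) ≤ Real.log a := by
      apply Real.log_le_log
      · positivity
      · exact_mod_cast hJa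
    have hJ0 : 0 ≤ Real.log ((Z * X ^ 2 + 1 : ℕ) : ℝ) := by
      apply Real.log_nonneg
      exact_mod_cast (by omega : 1 ≤ Z * X ^ 2 + 1)
    have hlb := hL a0 (Z * X ^ 70) n (Z * X ^ 2 + 1) R X (dn nu R) nu hnu hnusum
      (by omega) hRn (by omega) ?_ hRX rfl ?_ ?_ ?_ ?_ ?_ ?_ ?_
    · refine to_nat (w := w) (m := (R + 1) * (Z * X ^ 2)) hlb (pow_bound ha hwa ?_)
      -- 1 + 2 (R + 1) Z X^2 log a ≤ J X^16
      have e1 : (R + 1) * (Z * X ^ 2) ≤ 2 * X ^ 14 * (Z * X ^ 2) := by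
        apply Nat.mul_le_mul_right
        have := hXpos 14
        omega
      have e2 : (((R + 1) * (Z * X ^ 2) : ℕ) : ℝ) ≤ ((2 * X ^ 14 * (Z * X ^ 2) : ℕ) : ℝ) := by
        exact_mod_cast e1
      have e3 : 2 * (((R + 1) * (Z * X ^ 2) : ℕ) : ℝ) * Real.log a ≤
          2 * ((2 * X ^ 14 * (Z * X ^ 2) : ℕ) : ℝ) * X := by
        apply mul_le_mul _ _ hL0 (by positivity)
        · linarith
        · nlinarith
      have e4 : 1 + 2 * (2 * X ^ 14 * (Z * X ^ 2)) * X ≤ (Z * X ^ 2 + 1) * X ^ 16 := by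
        have e5 : 2 * (2 * X ^ 14 * (Z * X ^ 2)) * X = 4 * X ^ 15 * (Z * X ^ 2) := by ring
        have e6 : 4 * X ^ 15 * (Z * X ^ 2) ≤ X * X ^ 15 * (Z * X ^ 2) :=
          Nat.mul_le_mul_right _ (Nat.mul_le_mul_right _ (by omega))
        have e7 : (Z * X ^ 2 + 1) * X ^ 16 = X * X ^ 15 * (Z * X ^ 2) + X ^ 16 := by ring
        have e8 := hXpos 16
        omega
      have e9 : (1 : ℝ) + 2 * ((2 * X ^ 14 * (Z * X ^ 2) : ℕ) : ℝ) * X ≤
          (((Z * X ^ 2 + 1) * X ^ 16 : ℕ) : ℝ) := by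
        exact_mod_cast e4
      linarith
    · -- log J
      refine le_trans ?_ hl6
      apply mul_le_mul_of_nonneg_left _ (by positivity)
      exact pow_le_pow_left₀ (by linarith) (by linarith) 6
    · -- X^12 ex nu R ≤ D
      exact (Nat.mul_le_mul_right _ (hXp _ _ (by norm_num))).trans hRs
    · -- a0 X^40 ≤ D
      have e1 : (2 * X ^ 2602) * (a0 * X ^ 40) ≤ (2 * X ^ 2602) * dn nu R := by
        calc (2 * X ^ 2602) * (a0 * X ^ 40) = X ^ 2642 * (2 * a0) := by ring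
          _ ≤ Z * Z := Nat.mul_le_mul ((hXp _ _ (by norm_num)).trans hZX) ha1
          _ = Z ^ 2 := by rw [hZZ]
          _ ≤ 2 * (X ^ 2602 * dn nu R) := hZD
          _ = (2 * X ^ 2602) * dn nu R := by ring
      exact Nat.le_of_mul_le_mul_left e1 (Nat.mul_pos (by norm_num) (hXpos 2602))
    · -- J^3 X^80 ≤ D^2
      have e0 : Z * X ^ 2 + 1 ≤ 2 * (Z * X ^ 2) := by
        have : 1 ≤ Z * X ^ 2 := Nat.mul_pos hZpos (hXpos 2)
        omega
      have e1 : (4 * X ^ 5204) * ((Z * X ^ 2 + 1) ^ 3 * X ^ 80) ≤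
          (4 * X ^ 5204) * dn nu R ^ 2 := by
        calc (4 * X ^ 5204) * ((Z * X ^ 2 + 1) ^ 3 * X ^ 80) ≤
              (4 * X ^ 5204) * ((2 * (Z * X ^ 2)) ^ 3 * X ^ 80) :=
              Nat.mul_le_mul_left _ (Nat.mul_le_mul_right _ (Nat.pow_le_pow_left e0 3))
          _ = 32 * X ^ 5290 * Z ^ 3 := by ring
          _ ≤ X * X ^ 5290 * Z ^ 3 := Nat.mul_le_mul_right _ (Nat.mul_le_mul_right _ (by omega))
          _ = X ^ 5291 * Z ^ 3 := by ring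
          _ ≤ Z * Z ^ 3 := Nat.mul_le_mul_right _ ((hXp _ _ (by norm_num)).trans hZX)
          _ = (Z ^ 2) ^ 2 := by ring
          _ ≤ (2 * (X ^ 2602 * dn nu R)) ^ 2 := Nat.pow_le_pow_left hZD 2
          _ = (4 * X ^ 5204) * dn nu R ^ 2 := by ring
      exact Nat.le_of_mul_le_mul_left e1 (Nat.mul_pos (by norm_num) (hXpos 5204))
    · -- D ≤ J^2
      refine hnuw.trans (hwZ.trans ?_)
      calc 2 * Z ^ 2 ≤ X ^ 4 * Z ^ 2 := Nat.mul_le_mul_right _ (by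
            have := hXp1 4 (by norm_num)
            omega)
        _ = (Z * X ^ 2) ^ 2 := by ring
        _ ≤ (Z * X ^ 2 + 1) ^ 2 := Nat.pow_le_pow_left (Nat.le_succ _) 2
    · -- D ≤ a0 J
      refine hnuw.trans (hwZ.trans ?_)
      have e1 : 3 * (2 * Z ^ 2) ≤ 3 * (a0 * (Z * X ^ 2 + 1)) := by
        calc 3 * (2 * Z ^ 2) = 6 * (Z * Z) := by rw [hZZ]; ring
          _ ≤ X ^ 2 * (Z * Z) := Nat.mul_le_mul_right _ (by omega)
          _ = Z * (Z * X ^ 2) := by ring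
          _ ≤ Z * (Z * X ^ 2 + 1) := Nat.mul_le_mul_left _ (Nat.le_succ _)
          _ ≤ 3 * a0 * (Z * X ^ 2 + 1) := Nat.mul_le_mul_right _ ha4
          _ = 3 * (a0 * (Z * X ^ 2 + 1)) := by ring
      omega
    · -- J X^60 ≤ b0
      have e0 : Z * X ^ 2 + 1 ≤ 2 * (Z * X ^ 2) := by
        have : 1 ≤ Z * X ^ 2 := Nat.mul_pos hZpos (hXpos 2)
        omega
      calc (Z * X ^ 2 + 1) * X ^ 60 ≤ 2 * (Z * X ^ 2) * X ^ 60 := Nat.mul_le_mul_right _ e0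
        _ = 2 * X ^ 62 * Z := by ring
        _ ≤ X * X ^ 62 * Z := Nat.mul_le_mul_right _ (Nat.mul_le_mul_right _ (by omega))
        _ = Z * X ^ 63 := by ring
        _ ≤ Z * X ^ 70 := Nat.mul_le_mul_left _ (hXp _ _ (by norm_num))
    · -- 2 dn nu 1 ≤ a0 b0
      have e1 : 3 * (a0 * (Z * X ^ 70)) = 3 * a0 * (Z * X ^ 70) := by ring
      have e2 : Z * (Z * X ^ 70) ≤ 3 * a0 * (Z * X ^ 70) := Nat.mul_le_mul_right _ ha4
      have e3 : Z * (Z * X ^ 70) = Z ^ 2 * X ^ 70 := by ring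
      have e4 : Z ^ 2 * 16 ≤ Z ^ 2 * X ^ 70 := Nat.mul_le_mul_left _ (by
        have := hXp1 70 (by norm_num)
        omega)
      omega

end Vale.Agent.P181.DU.WU924
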